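import Mathlib
import Crest.Agent.R247.Ms10_322
import Crest.Agent.R247.Bo8_84
import Crest.Agent.N207.AI.HcDef

-- ▼ part N207/SB/Lap
section

/-!
# Row 207 (helper38): Laplace asymptotics of Gaussian bumps, abstract part
-/

set_option autoImplicit false
set_option linter.unusedSectionVars false
open Set Filter Topology MeasureTheory Real

noncomputable section

namespace Crest.Agent.N207.SB

variable {X : Type*} [TopologicalSpace X] [CompactSpace X] [MeasurableSpace X] [BorelSpace X]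

/-- the Gaussian weight -/
def ew (ρ : X → ℝ) (τ : ℝ) (z : X) : ℝ := exp (-(ρ z / (4 * τ)))

/-- its mass -/
def Zm (μ : Measure X) (ρ : X → ℝ) (τ : ℝ) : ℝ := ∫ z, ew ρ τ z ∂μ

/-- hypotheses: `ρ` is a squared distance to first order, `g = |∇ρ|²` -/
structure Dat (μ : Measure X) (ρ g : X → ℝ) : Prop where
  cρ : Continuous ρ
  cg : Continuous g
  nn : ∀ z, 0 ≤ ρ z
  lim : Tendsto (fun τ => Zm μ ρ τ / (4 * π * τ) ^ 2) (𝓝[>] 0) (𝓝 1)
  gle : ∀ η > 0, ∃ c > 0, ∀ z, ρ z < c → g z ≤ 4 * (1 + η) * ρ z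

theorem tail (k : ℕ) {c : ℝ} (hc : 0 < c) (C : ℝ) :
    Tendsto (fun τ : ℝ => C * exp (-(c / (4 * τ))) / τ ^ k) (𝓝[>] 0) (𝓝 0) := by
  have h1 : Tendsto (fun τ : ℝ => c / (4 * τ)) (𝓝[>] 0) atTop := by
    have := (tendsto_inv_nhdsGT_zero (𝕜 := ℝ)).const_mul_atTop (r := c / 4) (by positivity)
    refine this.congr fun τ => ?_
    field_simp
  have h2 := ((tendsto_pow_mul_exp_neg_atTop_nhds_zero k).comp h1).const_mul (C * (4 / c) ^ k)
  rw [mul_zero] at h2
  refine h2.congr' ?_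
  filter_upwards [self_mem_nhdsWithin] with τ hτ
  have hτ' : (0 : ℝ) < τ := hτ
  simp only [Function.comp, div_pow, mul_pow]
  field_simp

theorem intg {μ : Measure X} [IsFiniteMeasure μ] {f : X → ℝ} (hf : Continuous f) :
    Integrable f μ := hf.integrable_of_hasCompactSupport (HasCompactSupport.of_compactSpace f)

theorem ew_pos (ρ : X → ℝ) (τ : ℝ) (z : X) : 0 < ew ρ τ z := exp_pos _

theorem ew_cont {ρ : X → ℝ} (h : Continuous ρ) (τ : ℝ) : Continuous (ew ρ τ) := by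
  unfold ew; fun_prop

theorem ew_le {ρ : X → ℝ} {τ c : ℝ} (hτ : 0 < τ) {z : X} (h : c ≤ ρ z) :
    ew ρ τ z ≤ exp (-(c / (4 * τ))) :=
  exp_le_exp.2 (neg_le_neg (div_le_div_of_nonneg_right h (by positivity)))

variable {μ : Measure X} [IsFiniteMeasure μ] {ρ g : X → ℝ}

theorem Dat.scale (h : Dat μ ρ g) {s : ℝ} (hs : 0 < s) :
    Tendsto (fun τ => Zm μ ρ (τ / s) / (4 * π * τ) ^ 2) (𝓝[>] 0) (𝓝 (1 / s ^ 2)) := by
  have h1 : Tendsto (fun τ : ℝ => τ / s) (𝓝[>] 0) (𝓝[>] 0) := by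
    refine tendsto_nhdsWithin_iff.2 ⟨?_, ?_⟩
    · have : Tendsto (fun τ : ℝ => τ / s) (𝓝 0) (𝓝 (0 / s)) := tendsto_id.div_const s
      rw [zero_div] at this
      exact this.mono_left nhdsWithin_le_nhds
    · filter_upwards [self_mem_nhdsWithin] with τ hτ using div_pos hτ hs
  have h2 := (h.lim.comp h1).div_const (s ^ 2)
  refine h2.congr' ?_
  filter_upwards [self_mem_nhdsWithin] with τ hτ
  have hτ' : (0 : ℝ) < τ := hτ
  simp only [Function.comp]
  field_simp

theorem ew_div (ρ : X → ℝ) (τ s : ℝ) (z : X) :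
    ew ρ (τ / s) z = exp (-(s * (ρ z / (4 * τ)))) := by
  unfold ew
  congr 2
  by_cases hs : s = 0
  · simp [hs]
  · by_cases hτ : τ = 0
    · simp [hτ]
    · field_simp

/-- first moment -/
def M1 (μ : Measure X) (ρ : X → ℝ) (τ : ℝ) : ℝ := ∫ z, ρ z / (4 * τ) * ew ρ τ z ∂μ

theorem Dat.low (h : Dat μ ρ g) (δ τ : ℝ) :
    Zm μ ρ τ - Zm μ ρ (τ / (1 + δ)) ≤ δ * M1 μ ρ τ := by
  have c1 := ew_cont h.cρ τ
  have c0 := h.cρ
  rw [Zm, Zm, M1, ← integral_sub (intg c1) (intg (ew_cont h.cρ _)), ← integral_const_mul]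
  refine integral_mono ((intg c1).sub (intg (ew_cont h.cρ _))) (intg (by fun_prop)) fun z => ?_
  simp only [ew_div]
  unfold ew
  set t := ρ z / (4 * τ)
  have e1 : exp (-((1 + δ) * t)) = exp (-t) * exp (-(δ * t)) := by rw [← exp_add]; congr 1; ring
  have e2 := add_one_le_exp (-(δ * t))
  have e3 := exp_pos (-t)
  rw [e1]
  nlinarith

theorem Dat.upp (h : Dat μ ρ g) (δ τ : ℝ) :
    δ * M1 μ ρ τ ≤ Zm μ ρ (τ / (1 - δ)) - Zm μ ρ τ := by
  have c1 := ew_cont h.cρ τ
  have c0 := h.cρ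
  rw [Zm, Zm, M1, ← integral_sub (intg (ew_cont h.cρ _)) (intg c1), ← integral_const_mul]
  refine integral_mono (intg (by fun_prop)) ((intg (ew_cont h.cρ _)).sub (intg c1)) fun z => ?_
  simp only [ew_div]
  unfold ew
  set t := ρ z / (4 * τ)
  have e1 : exp (-((1 - δ) * t)) = exp (-t) * exp (δ * t) := by rw [← exp_add]; congr 1; ring
  have e2 := add_one_le_exp (δ * t)
  have e3 := exp_pos (-t)
  rw [e1]
  nlinarith

theorem Dat.m1 (h : Dat μ ρ g) :
    Tendsto (fun τ => M1 μ ρ τ / (4 * π * τ) ^ 2) (𝓝[>] 0) (𝓝 2) := by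
  refine tendsto_order.2 ⟨fun a ha => ?_, fun a ha => ?_⟩
  · set δ := (2 - a) / 4 with hδ
    have h0 : 0 < δ := by rw [hδ]; linarith
    have h1 := ((h.lim.sub (h.scale (s := 1 + δ) (by linarith))).div_const δ)
    have h2 : a < (1 - 1 / (1 + δ) ^ 2) / δ := by
      have : (1 - 1 / (1 + δ) ^ 2) / δ = (2 + δ) / (1 + δ) ^ 2 := by field_simp; ring
      rw [this, lt_div_iff₀ (by positivity)]
      have : a = 2 - 4 * δ := by rw [hδ]; ring
      rw [this]
      nlinarith [mul_pos h0 h0, mul_pos h0 (mul_pos h0 h0)]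
    filter_upwards [h1.eventually (lt_mem_nhds h2), self_mem_nhdsWithin] with τ h3 hτ
    have hτ' : (0 : ℝ) < τ := hτ
    refine h3.trans_le ?_
    rw [← sub_div, div_right_comm]
    refine div_le_div_of_nonneg_right ?_ (by positivity)
    rw [div_le_iff₀ h0, mul_comm]
    exact h.low δ τ
  · set δ := min (1 / 2) ((a - 2) / 9) with hδ
    have h0 : 0 < δ := lt_min (by norm_num) (by linarith)
    have h5 : δ ≤ 1 / 2 := min_le_left _ _
    have h6 : δ ≤ (a - 2) / 9 := min_le_right _ _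
    have h1 := (((h.scale (s := 1 - δ) (by linarith)).sub h.lim).div_const δ)
    have h2 : (1 / (1 - δ) ^ 2 - 1) / δ < a := by
      have h7 : 0 < 1 - δ := by linarith
      have : (1 / (1 - δ) ^ 2 - 1) / δ = (2 - δ) / (1 - δ) ^ 2 := by field_simp; ring
      rw [this, div_lt_iff₀ (by positivity)]
      have h8 : 2 - δ ≤ (2 + 8 * δ) * (1 - δ) ^ 2 := by
        nlinarith [mul_nonneg h0.le (mul_nonneg (sub_nonneg.2 h5) (by linarith : 0 ≤ 5 / 4 - δ))]
      refine h8.trans_lt (mul_lt_mul_of_pos_right (by linarith) (by positivity))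
    filter_upwards [h1.eventually (gt_mem_nhds h2), self_mem_nhdsWithin] with τ h3 hτ
    have hτ' : (0 : ℝ) < τ := hτ
    refine lt_of_le_of_lt ?_ h3
    rw [← sub_div, div_right_comm]
    refine div_le_div_of_nonneg_right ?_ (by positivity)
    rw [le_div_iff₀ h0, mul_comm]
    exact h.upp δ τ

theorem Dat.ratio (h : Dat μ ρ g) :
    Tendsto (fun τ => M1 μ ρ τ / Zm μ ρ τ) (𝓝[>] 0) (𝓝 2) := by
  have h1 := h.m1.div h.lim one_ne_zero
  rw [div_one] at h1
  refine h1.congr' ?_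
  filter_upwards [self_mem_nhdsWithin] with τ hτ
  have hτ' : (0 : ℝ) < τ := hτ
  simp only [Pi.div_apply]
  rw [div_div_div_cancel_right₀ (by positivity)]

theorem Dat.lg (h : Dat μ ρ g) :
    Tendsto (fun τ => log (Zm μ ρ τ / (4 * π * τ) ^ 2)) (𝓝[>] 0) (𝓝 0) := by
  have := h.lim.log one_ne_zero
  rwa [log_one] at this

theorem Dat.Zpos (h : Dat μ ρ g) : ∀ᶠ τ in 𝓝[>] (0 : ℝ), 0 < Zm μ ρ τ := by
  filter_upwards [h.lim.eventually (lt_mem_nhds one_pos), self_mem_nhdsWithin] with τ h1 hτ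
  have hτ' : (0 : ℝ) < τ := hτ
  exact (div_pos_iff_of_pos_right (by positivity)).1 h1

/-- exponentially small quantities stay small after division by the mass -/
theorem Dat.small (h : Dat μ ρ g) (k : ℕ) {c : ℝ} (hc : 0 < c) (C : ℝ) :
    Tendsto (fun τ : ℝ => C * exp (-(c / (4 * τ))) / τ ^ k / Zm μ ρ τ) (𝓝[>] 0) (𝓝 0) := by
  have h1 := (tail (k + 2) hc (C / (4 * π) ^ 2)).div h.lim one_ne_zero
  rw [div_one] at h1
  refine h1.congr' ?_
  filter_upwards [self_mem_nhdsWithin, h.Zpos] with τ hτ hZ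
  have hτ' : (0 : ℝ) < τ := hτ
  simp only [Pi.div_apply]
  field_simp
  ring

theorem Dat.mass (h : Dat μ ρ g) {S : Set X} (hS : MeasurableSet S) {c : ℝ} (hc : 0 < c)
    (hρ : ∀ z ∈ S, c ≤ ρ z) {ε : ℝ} (hε : 0 < ε) :
    ∀ᶠ τ in 𝓝[>] (0 : ℝ), ∫ z in S, ew ρ τ z / Zm μ ρ τ ∂μ ≤ ε := by
  filter_upwards [(h.small 0 hc (μ.real univ)).eventually (gt_mem_nhds hε), self_mem_nhdsWithin,
    h.Zpos] with τ h1 hτ hZ
  have hτ' : (0 : ℝ) < τ := hτ
  refine le_trans ?_ h1.le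
  rw [integral_div, pow_zero, div_one]
  refine div_le_div_of_nonneg_right ?_ hZ.le
  calc ∫ z in S, ew ρ τ z ∂μ ≤ ∫ _ in S, exp (-(c / (4 * τ))) ∂μ :=
        setIntegral_mono_on (intg (ew_cont h.cρ τ)).integrableOn (integrable_const _).integrableOn
          hS fun z hz => ew_le hτ' (hρ z hz)
    _ ≤ ∫ _, exp (-(c / (4 * τ))) ∂μ :=
        setIntegral_le_integral (integrable_const _) (Eventually.of_forall fun _ => (exp_pos _).le)
    _ = _ := by rw [integral_const, smul_eq_mul]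

theorem Dat.grad (h : Dat μ ρ g) {ε : ℝ} (hε : 0 < ε) :
    ∀ᶠ τ in 𝓝[>] (0 : ℝ), (∫ z, g z / (16 * τ) * ew ρ τ z ∂μ) / Zm μ ρ τ ≤ 2 + ε := by
  obtain ⟨c, hc, hg⟩ := h.gle (ε / 4) (by positivity)
  obtain ⟨C, hC⟩ := isCompact_univ.exists_bound_of_continuousOn h.cg.continuousOn
  have h1 := (h.ratio.const_mul (1 + ε / 4)).add (h.small 1 hc (|C| / 16 * μ.real univ))
  filter_upwards [h1.eventually (gt_mem_nhds (show (1 + ε / 4) * 2 + 0 < 2 + ε by linarith)),
    self_mem_nhdsWithin, h.Zpos] with τ h2 hτ hZ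
  have hτ' : (0 : ℝ) < τ := hτ
  refine le_trans ?_ h2.le
  rw [← mul_div_assoc, ← add_div]
  refine div_le_div_of_nonneg_right ?_ hZ.le
  have c1 := ew_cont h.cρ τ
  have c0 := h.cρ
  have c2 := h.cg
  calc ∫ z, g z / (16 * τ) * ew ρ τ z ∂μ
      ≤ ∫ z, ((1 + ε / 4) * (ρ z / (4 * τ) * ew ρ τ z)
          + |C| / (16 * τ) * exp (-(c / (4 * τ)))) ∂μ := by
        refine integral_mono (intg (by fun_prop)) (intg (by fun_prop)) fun z => ?_
        have e0 := ew_pos ρ τ z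
        have e1 := h.nn z
        by_cases hz : ρ z < c
        · have e2 : g z / (16 * τ) ≤ (1 + ε / 4) * (ρ z / (4 * τ)) := by
            rw [div_le_iff₀ (by positivity)]
            refine (hg z hz).trans (le_of_eq ?_)
            field_simp
            ring
          have e3 := mul_le_mul_of_nonneg_right e2 e0.le
          have e4 : 0 ≤ |C| / (16 * τ) * exp (-(c / (4 * τ))) := by positivity
          simp only
          linarith
        · have e2 : g z / (16 * τ) ≤ |C| / (16 * τ) :=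
            div_le_div_of_nonneg_right (((le_abs_self _).trans (hC z trivial)).trans (le_abs_self _))
              (by positivity)
          have e3 := mul_le_mul e2 (ew_le hτ' (not_lt.1 hz)) e0.le (by positivity)
          have e4 : 0 ≤ (1 + ε / 4) * (ρ z / (4 * τ) * ew ρ τ z) := by positivity
          simp only
          linarith
    _ = _ := by
        rw [integral_add (intg (by fun_prop)) (integrable_const _), integral_const_mul,
          integral_const, smul_eq_mul, M1]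
        field_simp

theorem Dat.curv (h : Dat μ ρ g) {R : X → ℝ} (hR : Continuous R) {ε : ℝ} (hε : 0 < ε) :
    ∀ᶠ τ in 𝓝[>] (0 : ℝ), (∫ z, τ * R z * ew ρ τ z ∂μ) / Zm μ ρ τ ≤ ε := by
  obtain ⟨C, hC⟩ := isCompact_univ.exists_bound_of_continuousOn hR.continuousOn
  have h1 : Tendsto (fun τ : ℝ => τ * C) (𝓝[>] 0) (𝓝 (0 * C)) :=
    (tendsto_id.mul_const C).mono_left nhdsWithin_le_nhds
  rw [zero_mul] at h1
  filter_upwards [h1.eventually (gt_mem_nhds hε), self_mem_nhdsWithin, h.Zpos] with τ h2 hτ hZ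
  have hτ' : (0 : ℝ) < τ := hτ
  refine le_trans ?_ h2.le
  have c1 := ew_cont h.cρ τ
  rw [div_le_iff₀ hZ, Zm, ← integral_const_mul]
  refine integral_mono (intg (by fun_prop)) (intg (by fun_prop)) fun z => ?_
  exact mul_le_mul_of_nonneg_right
    (mul_le_mul_of_nonneg_left ((le_abs_self _).trans (hC z trivial)) hτ'.le) (ew_pos ρ τ z).le

/-- the normalised bump -/
def ub (μ : Measure X) (ρ : X → ℝ) (τ : ℝ) (z : X) : ℝ := ew ρ τ z / Zm μ ρ τ

theorem pot_ub {τ : ℝ} (hτ : 0 < τ) (hZ : 0 < Zm μ ρ τ) (z : X) :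
    -log (ub μ ρ τ z) - 2 * log (4 * π * τ) =
      ρ z / (4 * τ) + log (Zm μ ρ τ / (4 * π * τ) ^ 2) := by
  rw [ub, log_div (ew_pos ρ τ z).ne' hZ.ne', log_div hZ.ne' (by positivity), log_pow, ew, log_exp]
  push_cast
  ring

/-- **Laplace asymptotics**: mass one, Nash entropy, `W`. -/
theorem Dat.main (h : Dat μ ρ g) {R : X → ℝ} (hR : Continuous R) {ε : ℝ} (hε : 0 < ε) :
    ∀ᶠ τ in 𝓝[>] (0 : ℝ), 0 < Zm μ ρ τ ∧ ∫ z, ub μ ρ τ z ∂μ = 1 ∧
      ∫ z, (τ * (g z / (16 * τ ^ 2) + R z) + (-log (ub μ ρ τ z) - 2 * log (4 * π * τ)) - 4) *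
        ub μ ρ τ z ∂μ ≤ ε ∧
      |(∫ z, (-log (ub μ ρ τ z) - 2 * log (4 * π * τ)) * ub μ ρ τ z ∂μ) - 2| ≤ ε := by
  have h1 := h.ratio.add h.lg
  rw [add_zero] at h1
  filter_upwards [(Metric.tendsto_nhds.1 h1) (ε / 3) (by positivity), self_mem_nhdsWithin, h.Zpos,
    h.grad (ε := ε / 3) (by positivity), h.curv hR (ε := ε / 3) (by positivity)]
    with τ h2 hτ hZ h3 h4
  have hτ' : (0 : ℝ) < τ := hτ
  have c1 := ew_cont h.cρ τ
  have c0 := h.cρ
  have c2 := h.cg
  set L := log (Zm μ ρ τ / (4 * π * τ) ^ 2) with hL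
  rw [Real.dist_eq] at h2
  have e1 : ∫ z, ub μ ρ τ z ∂μ = 1 := by
    simp only [ub]
    rw [integral_div]
    exact div_self hZ.ne'
  have e2 : ∫ z, (-log (ub μ ρ τ z) - 2 * log (4 * π * τ)) * ub μ ρ τ z ∂μ =
      M1 μ ρ τ / Zm μ ρ τ + L := by
    simp only [pot_ub hτ' hZ, ← hL]
    have : ∀ z, (ρ z / (4 * τ) + L) * ub μ ρ τ z =
        (ρ z / (4 * τ) * ew ρ τ z + L * ew ρ τ z) / Zm μ ρ τ := fun z => by rw [ub]; ring
    simp only [this]
    rw [integral_div, integral_add (intg (by fun_prop)) (intg (by fun_prop)), integral_const_mul,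
      add_div, M1, mul_div_assoc]
    congr 1
    rw [show (∫ z, ew ρ τ z ∂μ) = Zm μ ρ τ from rfl, div_self hZ.ne', mul_one]
  refine ⟨hZ, e1, ?_, by rw [e2]; linarith⟩
  have e3 : ∫ z, (τ * (g z / (16 * τ ^ 2) + R z) + (-log (ub μ ρ τ z) - 2 * log (4 * π * τ)) - 4) *
      ub μ ρ τ z ∂μ = (∫ z, g z / (16 * τ) * ew ρ τ z ∂μ) / Zm μ ρ τ +
        (∫ z, τ * R z * ew ρ τ z ∂μ) / Zm μ ρ τ + (M1 μ ρ τ / Zm μ ρ τ + L) - 4 := by
    simp only [pot_ub hτ' hZ, ← hL]
    have : ∀ z, (τ * (g z / (16 * τ ^ 2) + R z) + (ρ z / (4 * τ) + L) - 4) * ub μ ρ τ z =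
        (g z / (16 * τ) * ew ρ τ z + τ * R z * ew ρ τ z + ρ z / (4 * τ) * ew ρ τ z
          + (L - 4) * ew ρ τ z) / Zm μ ρ τ := fun z => by rw [ub]; field_simp; ring
    simp only [this]
    rw [integral_div, integral_add (intg (by fun_prop)) (intg (by fun_prop)),
      integral_add (intg (by fun_prop)) (intg (by fun_prop)),
      integral_add (intg (by fun_prop)) (intg (by fun_prop)), integral_const_mul, M1,
      show (∫ z, ew ρ τ z ∂μ) = Zm μ ρ τ from rfl]
    field_simp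
    ring
  rw [e3]
  linarith [(abs_lt.1 h2).2]

end Crest.Agent.N207.SB

end
end

-- ▼ part N207/SB/Gau
section

/-!
# Row 207 (helper38): Gaussian bumps on `ℝ⁴`
-/

set_option autoImplicit false
set_option linter.unusedSectionVars false
open Set Filter Topology MeasureTheory Real

noncomputable section

namespace Crest.Agent.N207.SB

local notation "𝔼" => EuclideanSpace ℝ (Fin 4)

theorem cv (A : 𝔼 ≃L[ℝ] 𝔼) (a : 𝔼) (f : 𝔼 → ℝ) :
    ∫ y, f (A (y - a)) = |(A : 𝔼 →L[ℝ] 𝔼).det|⁻¹ * ∫ w, f w := by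
  rw [integral_sub_right_eq_self (fun y => f (A y)) a]
  have hd : LinearMap.det (A : 𝔼 →ₗ[ℝ] 𝔼) ≠ 0 := (LinearEquiv.isUnit_det' A.toLinearEquiv).ne_zero
  have h1 := Measure.map_linearMap_addHaar_eq_smul_addHaar (volume : Measure 𝔼) hd
  have h2 := A.toHomeomorph.measurableEmbedding.integral_map (μ := volume) f
  have h3 : (Measure.map A.toHomeomorph volume : Measure 𝔼) =
      Measure.map (A : 𝔼 →ₗ[ℝ] 𝔼) volume := rfl
  rw [h3, h1, integral_smul_measure, ENNReal.toReal_ofReal (abs_nonneg _), abs_inv] at h2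
  exact h2.symm

theorem gauss4 : ∫ w : 𝔼, exp (-(‖w‖ ^ 2 / 4)) = (4 * π) ^ 2 := by
  have h := GaussianFourier.integral_rexp_neg_mul_sq_norm (V := 𝔼) (b := 1 / 4) (by norm_num)
  rw [finrank_euclideanSpace_fin] at h
  have e : ((4 : ℕ) : ℝ) / 2 = ((2 : ℕ) : ℝ) := by norm_num
  rw [e, rpow_natCast] at h
  rw [show (4 * π) = π / (1 / 4) by ring, ← h]
  congr 1
  funext w
  congr 1
  ring

theorem gauss_int : Integrable fun w : 𝔼 => exp (-(‖w‖ ^ 2 / 4)) := by
  by_contra h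
  have h1 := gauss4
  rw [integral_undef h] at h1
  have : (0 : ℝ) < (4 * π) ^ 2 := by positivity
  linarith

theorem gauss_lim (A : 𝔼 ≃L[ℝ] 𝔼) (a : 𝔼) {F : 𝔼 → ℝ} (hm : Measurable F) {C : ℝ}
    (hC : ∀ y, |F y| ≤ C) (hc : ContinuousAt F a) :
    Tendsto (fun τ : ℝ => (∫ y, F y * exp (-(‖A (y - a)‖ ^ 2 / (4 * τ)))) / (4 * π * τ) ^ 2)
      (𝓝[>] 0) (𝓝 (|(A : 𝔼 →L[ℝ] 𝔼).det|⁻¹ * F a)) := by
  have h1 : Tendsto (fun τ : ℝ => ∫ w : 𝔼, F (a + A.symm (√τ • w)) * exp (-(‖w‖ ^ 2 / 4)))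
      (𝓝[>] 0) (𝓝 (∫ w : 𝔼, F a * exp (-(‖w‖ ^ 2 / 4)))) := by
    refine tendsto_integral_filter_of_dominated_convergence
      (fun w => C * exp (-(‖w‖ ^ 2 / 4))) (Eventually.of_forall fun τ => ?_)
      (Eventually.of_forall fun τ => Eventually.of_forall fun w => ?_) (gauss_int.const_mul C)
      (Eventually.of_forall fun w => ?_)
    · refine Measurable.aestronglyMeasurable (Measurable.mul (hm.comp ?_) ?_)
      · exact Continuous.measurable (by fun_prop)
      · exact Continuous.measurable (by fun_prop)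
    · rw [Real.norm_eq_abs, abs_mul, abs_of_pos (exp_pos _)]
      exact mul_le_mul_of_nonneg_right (hC _) (exp_pos _).le
    · refine Tendsto.mul_const _ (hc.tendsto.comp ?_)
      have : Continuous fun τ : ℝ => a + A.symm (√τ • w) := by fun_prop
      have h2 := this.tendsto 0
      simp only [sqrt_zero, zero_smul, map_zero, add_zero] at h2
      exact h2.mono_left nhdsWithin_le_nhds
  rw [integral_const_mul, gauss4] at h1
  have h2 := (h1.const_mul |(A : 𝔼 →L[ℝ] 𝔼).det|⁻¹).div_const ((4 * π) ^ 2)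
  have e0 : |(A : 𝔼 →L[ℝ] 𝔼).det|⁻¹ * (F a * (4 * π) ^ 2) / (4 * π) ^ 2 =
      |(A : 𝔼 →L[ℝ] 𝔼).det|⁻¹ * F a := by field_simp
  rw [e0] at h2
  refine h2.congr' ?_
  filter_upwards [self_mem_nhdsWithin] with τ hτ
  have hτ' : (0 : ℝ) < τ := hτ
  set f : 𝔼 → ℝ := fun w => F (a + A.symm w) * exp (-(‖w‖ ^ 2 / (4 * τ))) with hf
  have e1 : ∫ y, F y * exp (-(‖A (y - a)‖ ^ 2 / (4 * τ))) = ∫ y, f (A (y - a)) := by
    simp [hf]
  have e2 := Measure.integral_comp_smul (volume : Measure 𝔼) f (√τ)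
  rw [finrank_euclideanSpace_fin] at e2
  have e3 : (√τ) ^ 4 = τ ^ 2 := by
    rw [show (4 : ℕ) = 2 * 2 from rfl, pow_mul, sq_sqrt hτ'.le]
  rw [e3, abs_of_pos (by positivity), smul_eq_mul] at e2
  have e4 : ∀ w : 𝔼, f (√τ • w) = F (a + A.symm (√τ • w)) * exp (-(‖w‖ ^ 2 / 4)) := fun w => by
    simp only [hf]
    rw [norm_smul, mul_pow, Real.norm_eq_abs, sq_abs, sq_sqrt hτ'.le]
    congr 3
    field_simp
  simp only [e4] at e2
  rw [e1, cv, e2]
  field_simp

end Crest.Agent.N207.SB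

end
end

-- ▼ part N207/SB/Rho
section

/-!
# Row 207 (helper38): a smooth squared distance on a closed Riemannian 4-manifold
-/

set_option autoImplicit false
set_option maxSynthPendingDepth 3
set_option linter.unusedSectionVars false

open Bundle Set MeasureTheory Manifold Filter Metric Real
open scoped ENNReal ContDiff Topology NNReal
open Crest.Agent.R247 Crest.Agent.R247.Ms322

noncomputable section

namespace Crest.Agent.N207.SB

local notation "𝔼" => EuclideanSpace ℝ (Fin 4)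

theorem low {X : Type*} [TopologicalSpace X] [CompactSpace X] {ρ : X → ℝ} (hc : Continuous ρ)
    {x : X} (hp : ∀ z, z ≠ x → 0 < ρ z) {V : Set X} (hV : V ∈ 𝓝 x) :
    ∃ c > 0, ∀ z, z ∉ V → c ≤ ρ z := by
  have hK : IsCompact (interior V)ᶜ := isOpen_interior.isClosed_compl.isCompact
  rcases (interior V)ᶜ.eq_empty_or_nonempty with h | h
  · refine ⟨1, one_pos, fun z hz => ?_⟩
    have : z ∈ (interior V)ᶜ := fun h' => hz (interior_subset h')
    rw [h] at this
    exact this.elim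
  · obtain ⟨z0, h0, h1⟩ := hK.exists_isMinOn h hc.continuousOn
    refine ⟨ρ z0, hp z0 ?_, fun z hz => h1 fun h' => hz (interior_subset h')⟩
    rintro rfl
    exact h0 (mem_interior_iff_mem_nhds.2 hV)

variable {M : Type*} [MetricSpace M] [CompactSpace M] [ChartedSpace 𝔼 M]
  [IsManifold (𝓡 4) ∞ M]
  [RiemannianBundle (fun p : M => TangentSpace (𝓡 4) p)]
  [IsContMDiffRiemannianBundle (𝓡 4) ∞ 𝔼 (fun p : M => TangentSpace (𝓡 4) p)]
  [SecondCountableTopology M] [Nonempty M] [IsRiemannianManifold (𝓡 4) M]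
  [MeasurableSpace M] [BorelSpace M]

theorem finVol : IsFiniteMeasure (μHE[4] : Measure M) := by
  have := isLocallyFiniteMeasure 4 M
  infer_instance

theorem gam_cont {f : M → ℝ} (hf : ContMDiff (𝓡 4) 𝓘(ℝ, ℝ) ∞ f) :
    Continuous (Bo84.mGam 4 f f) :=
  continuous_iff_continuousAt.2 fun z =>
    (Bo84.contMDiffAt_mGam (a := ∞) (m := 0) (hf z) (hf z) (by simp) (by simp)).continuousAt

theorem grad_sq {ρ : M → ℝ} {B : M → 𝔼} {V : Set M} (hV : IsOpen V) {K : ℝ≥0}
    (hB : LipschitzOnWith K B V) (hρ : ∀ z ∈ V, ρ z = ‖B z‖ ^ 2) {z : M} (hz : z ∈ V) :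
    Bo84.mGam 4 ρ ρ z ≤ 4 * K ^ 2 * ρ z := by
  have h1 : ‖Gr (n := 4) ρ z‖ ≤ 2 * K * ‖B z‖ := by
    refine le_of_forall_pos_le_add fun δ hδ => ?_
    set e : ℝ := δ / (2 * K + 1) with he
    have he0 : 0 < e := by positivity
    have hc : ContinuousAt B z := hB.continuousOn.continuousAt (hV.mem_nhds hz)
    have hW : V ∩ {y | ‖B y‖ < ‖B z‖ + e} ∈ 𝓝 z :=
      inter_mem (hV.mem_nhds hz) (hc.norm.eventually (gt_mem_nhds (by linarith)))
    have hL : LipschitzOnWith (Real.toNNReal (2 * K * (‖B z‖ + e))) ρ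
        (V ∩ {y | ‖B y‖ < ‖B z‖ + e}) := by
      refine LipschitzOnWith.of_dist_le' fun y hy y' hy' => ?_
      have e1 := hB.dist_le_mul y hy.1 y' hy'.1
      have e2 : |‖B y‖ - ‖B y'‖| ≤ K * dist y y' :=
        (abs_norm_sub_norm_le _ _).trans (by rwa [dist_eq_norm] at e1)
      have e3 : ‖B y‖ < ‖B z‖ + e := hy.2
      have e4 : ‖B y'‖ < ‖B z‖ + e := hy'.2
      rw [Real.dist_eq, hρ y hy.1, hρ y' hy'.1, sq_sub_sq, abs_mul,
        abs_of_nonneg (by positivity : 0 ≤ ‖B y‖ + ‖B y'‖)]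
      calc _ ≤ (2 * (‖B z‖ + e)) * (K * dist y y') :=
            mul_le_mul (by linarith) e2 (abs_nonneg _) (by positivity)
        _ = _ := by ring
    have h2 := norm_Gr_le_of_lipschitzOn (n := 4) hW hL
    rw [Real.coe_toNNReal _ (by positivity)] at h2
    have h3 : 2 * K * e ≤ δ := by
      rw [he, mul_div_assoc', div_le_iff₀ (by positivity)]
      nlinarith
    linarith
  rw [← norm_Gr_sq_eq_mGam, hρ z hz]
  calc _ ≤ (2 * K * ‖B z‖) ^ 2 := pow_le_pow_left₀ (norm_nonneg _) h1 2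
    _ = _ := by ring

theorem exists_rho (x : M) : ∃ ρ : M → ℝ, ContMDiff (𝓡 4) 𝓘(ℝ, ℝ) ∞ ρ ∧
    Dat (μHE[4] : Measure M) ρ (Bo84.mGam 4 ρ ρ) ∧ ∀ z, z ≠ x → 0 < ρ z := by
  have := finVol (M := M)
  set φ := chartAt 𝔼 x with hφ
  set a : 𝔼 := φ x with ha
  have hxs : x ∈ φ.source := mem_chart_source 𝔼 x
  have hat : a ∈ φ.target := φ.map_source hxs
  obtain ⟨A, hA, hdet⟩ := exists_isometry (n := 4) x hat
  obtain ⟨f⟩ : Nonempty (SmoothBumpFunction (𝓡 4) x) := inferInstance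
  set q : M → ℝ := fun z => ‖A (φ z - a)‖ ^ 2 with hq
  have hqs : ContMDiffOn (𝓡 4) 𝓘(ℝ, ℝ) ∞ q φ.source := by
    have h1 : ContDiff ℝ ∞ fun y : 𝔼 => ‖A (y - a)‖ ^ 2 :=
      (contDiff_norm_sq ℝ).comp (A.contDiff.comp (contDiff_id.sub contDiff_const))
    exact h1.contMDiff.comp_contMDiffOn contMDiffOn_chart
  set ρ : M → ℝ := fun z => f z • q z + (1 - f z) with hρ
  have hs : ContMDiff (𝓡 4) 𝓘(ℝ, ℝ) ∞ ρ :=
    (f.contMDiff_smul hqs).add (contMDiff_const.sub f.contMDiff)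
  have hnn : ∀ z, 0 ≤ ρ z := fun z =>
    add_nonneg (mul_nonneg f.nonneg (by positivity)) (sub_nonneg.2 f.le_one)
  have hp : ∀ z, z ≠ x → 0 < ρ z := by
    intro z hz
    rcases (f.le_one (x := z)).eq_or_lt with h1 | h1
    · have hzs : z ∈ φ.source := f.support_subset_source (by simp [h1])
      have h2 : φ z - a ≠ 0 := fun h => hz (φ.injOn hzs hxs (sub_eq_zero.1 h))
      have h3 : A (φ z - a) ≠ 0 := fun h => h2 (A.map_eq_zero_iff.1 h)
      simp only [hρ, h1, one_smul, sub_self, add_zero, hq]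
      positivity
    · exact add_pos_of_nonneg_of_pos (mul_nonneg f.nonneg (by positivity)) (sub_pos.2 h1)
  have hU : {z | ρ z = q z} ∈ 𝓝 x := by
    filter_upwards [f.eventuallyEq_one] with z hz
    simp only [hρ, hz, Pi.one_apply, one_smul, sub_self, add_zero]
  have hsa : φ.symm a = x := φ.left_inv hxs
  refine ⟨ρ, hs, ⟨hs.continuous, gam_cont hs, hnn, ?_, fun η hη => ?_⟩, hp⟩
  · have hd : ContinuousAt (dens (n := 4) x) a :=
      (continuousOn_dens x).continuousAt (φ.open_target.mem_nhds hat)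
    have hU' : {z | ρ z = q z} ∈ 𝓝 (φ.symm a) := by rwa [hsa]
    obtain ⟨r, hr, hb⟩ := Metric.mem_nhds_iff.1 (inter_mem (inter_mem (φ.open_target.mem_nhds hat)
      ((φ.continuousAt_symm hat).preimage_mem_nhds hU'))
      (hd.eventually (gt_mem_nhds (lt_add_one _))))
    have hbt : ball a r ⊆ φ.target := fun y hy => (hb hy).1.1
    set F : 𝔼 → ℝ := (ball a r).indicator (dens (n := 4) x) with hF
    have hFm : Measurable F := by
      classical
      rw [hF, ← piecewise_eq_indicator]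
      exact ((continuousOn_dens x).mono hbt).measurable_piecewise continuousOn_const
        measurableSet_ball
    have hFb : ∀ y, |F y| ≤ dens (n := 4) x a + 1 := fun y => by
      have h0 := dens_nonneg (n := 4) x a
      by_cases hy : y ∈ ball a r
      · rw [hF, indicator_of_mem hy, abs_of_nonneg (dens_nonneg _ _)]
        exact le_of_lt (hb hy).2
      · rw [hF, indicator_of_notMem hy, abs_zero]
        linarith
    have hFc : ContinuousAt F a := hd.congr (by
      filter_upwards [ball_mem_nhds a hr] with y hy using (indicator_of_mem hy _).symm)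
    have h1 := gauss_lim A a hFm hFb hFc
    have hFa : F a = |(A : 𝔼 →L[ℝ] 𝔼).det| := by
      rw [hF, indicator_of_mem (mem_ball_self hr), hdet]; rfl
    have hd0 : |(A : 𝔼 →L[ℝ] 𝔼).det| ≠ 0 := by
      rw [← hFa, hF, indicator_of_mem (mem_ball_self hr)]; exact (dens_pos x hat).ne'
    rw [hFa, inv_mul_cancel₀ hd0] at h1
    set S : Set M := φ.symm '' ball a r with hS
    have hSo : IsOpen S := φ.symm.isOpen_image_of_subset_source isOpen_ball hbt
    obtain ⟨c, hc, hlow⟩ := low hs.continuous hp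
      (hSo.mem_nhds (show x ∈ S from ⟨a, mem_ball_self hr, hsa⟩))
    have h2 : Tendsto (fun τ : ℝ => (∫ z in Sᶜ, ew ρ τ z ∂(μHE[4] : Measure M)) / (4 * π * τ) ^ 2)
        (𝓝[>] 0) (𝓝 0) := by
      refine squeeze_zero' (Eventually.of_forall fun τ => div_nonneg
        (integral_nonneg fun z => (ew_pos ρ τ z).le) (sq_nonneg _)) ?_
        (tail 2 hc ((μHE[4] : Measure M).real univ / (4 * π) ^ 2))
      filter_upwards [self_mem_nhdsWithin] with τ hτ
      have hτ' : (0 : ℝ) < τ := hτ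
      have h3 : ∫ z in Sᶜ, ew ρ τ z ∂(μHE[4] : Measure M) ≤
          (μHE[4] : Measure M).real univ * exp (-(c / (4 * τ))) :=
        calc _ ≤ ∫ _ in Sᶜ, exp (-(c / (4 * τ))) ∂(μHE[4] : Measure M) :=
              setIntegral_mono_on (intg (ew_cont hs.continuous τ)).integrableOn
                (integrable_const _).integrableOn hSo.measurableSet.compl
                fun z hz => ew_le hτ' (hlow z hz)
          _ ≤ ∫ _, exp (-(c / (4 * τ))) ∂(μHE[4] : Measure M) :=
              setIntegral_le_integral (integrable_const _)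
                (Eventually.of_forall fun _ => (exp_pos _).le)
          _ = _ := by rw [integral_const, smul_eq_mul]
      refine (div_le_div_of_nonneg_right h3 (by positivity)).trans (le_of_eq ?_)
      field_simp
    have h3 := h1.add h2
    rw [add_zero] at h3
    refine h3.congr fun τ => ?_
    rw [← add_div, Zm, ← integral_add_compl hSo.measurableSet
      (intg (μ := (μHE[4] : Measure M)) (ew_cont hs.continuous τ))]
    congr 2
    rw [hS, hφ, integral_symm_image x hbt measurableSet_ball,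
      ← integral_indicator measurableSet_ball]
    refine integral_congr_ae (Eventually.of_forall fun y => ?_)
    by_cases hy : y ∈ ball a r
    · have e1 : ρ (φ.symm y) = q (φ.symm y) := (hb hy).1.2
      simp only [hF, indicator_of_mem hy, smul_eq_mul, ew]
      rw [← hφ, e1]
      simp only [hq, φ.right_inv (hbt hy)]
    · simp only [hF, indicator_of_notMem hy, zero_mul]
  · set e : ℝ≥0 := Real.toNNReal (min 1 (η / 3)) with he
    have he0 : 0 < min 1 (η / 3) := lt_min one_pos (by positivity)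
    have hec : (e : ℝ) = min 1 (η / 3) := Real.coe_toNNReal _ he0.le
    obtain ⟨r, hr, hbt, -, hL⟩ := exists_bilip (n := 4) x hat hA (η := e) (Real.toNNReal_pos.2 he0)
    have hSo : IsOpen (φ.symm '' ball a r) := φ.symm.isOpen_image_of_subset_source isOpen_ball hbt
    set V : Set M := φ.symm '' ball a r ∩ interior {z | ρ z = q z} with hV
    have hVo : IsOpen V := hSo.inter isOpen_interior
    have hL' : LipschitzOnWith (1 + e) (fun z => A (φ z - a)) V := by
      intro y hy y' hy'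
      have := hL hy.1 hy'.1
      simpa [map_sub, edist_sub_right] using this
    obtain ⟨c, hc, hlow⟩ := low hs.continuous hp (hVo.mem_nhds
      ⟨⟨a, mem_ball_self hr, hsa⟩, mem_interior_iff_mem_nhds.2 hU⟩)
    refine ⟨c, hc, fun z hz => ?_⟩
    have hzV : z ∈ V := by
      by_contra h
      exact absurd (hlow z h) (not_le.2 hz)
    refine (grad_sq hVo hL'
      (fun y hy => (interior_subset hy.2 : y ∈ {z | ρ z = q z})) hzV).trans ?_
    refine mul_le_mul_of_nonneg_right (mul_le_mul_of_nonneg_left ?_ (by norm_num)) (hnn z)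
    have e1 : (e : ℝ) ≤ 1 := hec ▸ min_le_left _ _
    have e2 : (e : ℝ) ≤ η / 3 := hec ▸ min_le_right _ _
    have e3 : (0 : ℝ) ≤ e := e.2
    push_cast
    nlinarith

end Crest.Agent.N207.SB

end
end

-- ▼ part N207/SB/Bump

/-!
# Row 207 (helper38): `HC.Bump` for the concrete scalar calculus
-/

set_option autoImplicit false
set_option maxSynthPendingDepth 3
set_option linter.unusedSectionVars false

open Bundle Set MeasureTheory Manifold Filter Metric Real
open scoped ENNReal ContDiff Topology NNReal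
open Crest.Agent.R247 Crest.Agent.R247.Ms322

noncomputable section

namespace Crest.Agent.N207.SB

section static

local notation "𝔼" => EuclideanSpace ℝ (Fin 4)

variable {M : Type*} [MetricSpace M] [CompactSpace M] [ChartedSpace 𝔼 M]
  [IsManifold (𝓡 4) ∞ M]
  [RiemannianBundle (fun p : M => TangentSpace (𝓡 4) p)]
  [IsContMDiffRiemannianBundle (𝓡 4) ∞ 𝔼 (fun p : M => TangentSpace (𝓡 4) p)]
  [SecondCountableTopology M] [Nonempty M] [IsRiemannianManifold (𝓡 4) M]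
  [MeasurableSpace M] [BorelSpace M]

theorem bump_static {R : M → ℝ} (hR : Continuous R) (x : M) {ε : ℝ} (hε : 0 < ε) :
    ∃ τ, 0 < τ ∧ τ < ε ∧ ∃ u : M → ℝ, ContMDiff (𝓡 4) 𝓘(ℝ, ℝ) ∞ u ∧ (∀ y, 0 < u y) ∧
      ∫ y, u y ∂(μHE[4] : Measure M) = 1 ∧
      ∫ y, (τ * (Bo84.mGam 4 u u y / u y ^ 2 + R y) + HC.pot τ u y - 4) * u y
        ∂(μHE[4] : Measure M) ≤ ε ∧
      |(∫ y, HC.pot τ u y * u y ∂(μHE[4] : Measure M)) - 2| ≤ ε ∧
      ∫ y in {y | ε ≤ dist x y}, u y ∂(μHE[4] : Measure M) ≤ ε := by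
  have := finVol (M := M)
  obtain ⟨ρ, hs, hD, hp⟩ := exists_rho x
  obtain ⟨c, hc, hlow⟩ := low hs.continuous hp (ball_mem_nhds x hε)
  have hS : MeasurableSet {y : M | ε ≤ dist x y} :=
    (isClosed_le continuous_const (by fun_prop)).measurableSet
  have h1 := hD.mass hS hc (fun z hz => hlow z (by
    rw [mem_ball, dist_comm]; exact not_lt.2 hz)) hε
  obtain ⟨τ, ⟨⟨⟨hZ, e1, e2, e3⟩, e4⟩, hτ⟩, hτε⟩ := ((((hD.main hR hε).and h1).and
    self_mem_nhdsWithin).and (mem_nhdsWithin_of_mem_nhds (gt_mem_nhds hε))).exists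
  have hτ' : (0 : ℝ) < τ := hτ
  set Z := Zm (μHE[4] : Measure M) ρ τ with hZd
  set ψ : ℝ → ℝ := fun s => exp (-(s / (4 * τ))) / Z with hψ
  have hψs : ContDiff ℝ ∞ ψ := by rw [hψ]; fun_prop
  have hu : ub (μHE[4] : Measure M) ρ τ = fun z => ψ (ρ z) := rfl
  have hd : ∀ s, deriv ψ s = -(1 / (4 * τ)) * ψ s := fun s => by
    have h2 : HasDerivAt (fun s : ℝ => -(s / (4 * τ))) (-(1 / (4 * τ))) s :=
      ((hasDerivAt_id s).div_const _).neg
    rw [(h2.exp.div_const Z).deriv, hψ]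
    ring
  have hus : ContMDiff (𝓡 4) 𝓘(ℝ, ℝ) ∞ (ub (μHE[4] : Measure M) ρ τ) :=
    hψs.contMDiff.comp hs
  have hup : ∀ z, 0 < ub (μHE[4] : Measure M) ρ τ z := fun z => div_pos (ew_pos ρ τ z) hZ
  refine ⟨τ, hτ', hτε, ub (μHE[4] : Measure M) ρ τ, hus, hup, e1, le_of_eq_of_le ?_ e2, e3, e4⟩
  refine integral_congr_ae (Eventually.of_forall fun z => ?_)
  have hm : MDifferentiableAt (𝓡 4) 𝓘(ℝ, ℝ) ρ z := (hs z).mdifferentiableAt (by simp)
  have hd' : DifferentiableAt ℝ ψ (ρ z) := hψs.differentiable (by simp) _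
  have g1 : Bo84.mGam 4 (ub (μHE[4] : Measure M) ρ τ) (ub (μHE[4] : Measure M) ρ τ) z =
      deriv ψ (ρ z) * (deriv ψ (ρ z) * Bo84.mGam 4 ρ ρ z) := by
    rw [hu, Bo84.mGam_comp_left hd' hm, Bo84.mGam_comp_right hd' hm]
  have g2 : ψ (ρ z) ≠ 0 := (hup z).ne'
  simp only [HC.pot]
  rw [g1, hd]
  congr 4
  rw [hu]
  field_simp
  ring

end static

variable {M : Type*} [TopologicalSpace M] [ChartedSpace E4 M] [IsManifold 𝓘(ℝ, E4) ∞ M]
  [T3Space M] [ConnectedSpace M] [MeasurableSpace M] [BorelSpace M] [CompactSpace M]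
  [SecondCountableTopology M]

/-- **tiny Gaussian bumps**; the continuity of the scalar curvature is a hypothesis -/
theorem bump_of (F : Flow M) (hR : ∀ t ∈ Ioo 0 F.T, Continuous (F.m t).scal) : F.hc.Bump := by
  intro t ht x ε hε
  exact bump_static (M := Sl (F.m t)) (R := (F.m t).scal) (hR t ht) x hε

theorem bump (F : Flow M) (h : F.hc.Alg) : F.hc.Bump := by
  refine bump_of F fun t ht => ?_
  have hs : F.hc.St (t / 2) ((t + F.T) / 2) :=
    ⟨by linarith [ht.1], by linarith [ht.1, ht.2], by rw [Flow.hc_T]; linarith [ht.2]⟩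
  exact h.s0_cont (h.sm_s0 (h.sm_R hs) t ⟨by linarith [ht.1], by linarith [ht.2]⟩)

end Crest.Agent.N207.SB

end
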